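import Crest.Agent.X212.Qab60.Props
import Crest.Agent.X212.Rd78.Bas

/-!
# Row 212, QA (helper50): QA-ADD, adding a one-form to an abelian point
-/

set_option autoImplicit false
set_option linter.unusedSectionVars false
noncomputable section
open scoped Manifold ContDiff Topology InnerProductSpace
open MeasureTheory Set Function Filter
open Crest.Agent.R208.F (Ext)

namespace Crest.Agent.X212.Qa50
open An Nd18 Wz78 Qab60
open Num57 hiding c1 c2
open Dr59 (dM)
open Abel74 (fm fF)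
open Loc8 (Rd)

variable {E : Type} [NormedAddCommGroup E] [NormedSpace ℝ E] [FiniteDimensional ℝ E]
  [MeasurableSpace E] [BorelSpace E]
  {HM : Type} [TopologicalSpace HM] {I : ModelWithCorners ℝ E HM} [I.Boundaryless]
  {M : Type} [TopologicalSpace M] [ChartedSpace HM M] [IsManifold I ∞ M] [T2Space M]
  [MeasurableSpace M] [BorelSpace M] [SecondCountableTopology M]
  {ι : Type} [Fintype ι] {lam : Type} [Fintype lam]
  {B : Base M ι lam} {G : Geo I M ι lam} {Ω : Set M} {m : Md M ι lam} {W : m.Cn} {ξ : M → m.A}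
  {x : M}

theorem off_ev {N : Type} [Zero N] {u : M → N} (hΩ : IsClosed Ω) (h : Off Ω u) (hx : x ∉ Ω) :
    u =ᶠ[𝓝 x] 0 := mem_of_superset (hΩ.isOpen_compl.mem_nhds hx) h

section rd
variable (R : Rd G.F m W Ω ξ)
include R

theorem rd_mem (x : M) : ξ x ∈ m.gS x := by
  by_cases hx : x ∈ Ω
  exacts [R.mem x hx, R.off x hx ▸ zero_mem _]

theorem rd_inn (H : m.OK I B) (hx : x ∈ Ω) : ⟪ξ x, ξ x⟫_ℝ = 16 := by
  rw [real_inner_self_eq_norm_sq, Abel74.norm_sq H (R.mem x hx) (R.sq x hx)]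

variable (hΩ : IsClosed Ω)
include hΩ

theorem rd_sm (x : M) : SA I ξ x := by
  by_cases hx : x ∈ Ω
  exacts [R.sm x hx, contMDiffAt_const.congr_of_eventuallyEq (off_ev hΩ R.off hx)]

theorem rd_par (a : ι) (x : M) : nab I G.F.e (m.adW W) a ξ x = 0 := by
  by_cases hx : x ∈ Ω
  · exact R.par x hx a
  · rw [nab_congr a (v := fun _ => 0) (off_ev hΩ R.off hx)]
    simp [nab]

theorem rd_cz (hG : G.OK B) (C : m.IsConn B G W) : Cz I Ω (fm G.F m W ξ) := by
  have k := R.cl_fm hG C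
  have o : Off Ω (fm G.F m W ξ) := fun x => R.fm_off
  refine ⟨⟨fun x => ?_, fun x => Abel74.dg_fm x trivial⟩, funext fun x => ?_, o⟩ <;>
    by_cases hx : x ∈ Ω
  · exact k.sm x hx
  · exact Dr59.cAt_zero.congr (off_ev hΩ o hx)
  · exact k.cl x hx
  · rw [Dr59.dM_congr (off_ev hΩ o hx), Dr59.dM_zero]

end rd

variable (I M ι lam) in
/-- **QA-ADD** -/
theorem addStmt : AddStmt I M ι lam := by
  intro r B G Ω c ξ hB hG hΩ h
  have R := h.rd
  have H := h.adm.ok
  have C := h.adm.conn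
  refine ⟨fun a ha ho => ?_, fun x hx => ⟨?_, ?_⟩, rd_cz R hΩ.1 hG C, fun x hx e => by
    simpa [e] using rd_inn R H hx⟩
  · have s := fun i x => (sa_k1 G.F (ha.sm x) i).smul (rd_sm R hΩ.1 x)
    have g := fun x i => (c.m.gS x).smul_mem (k1 G.F a i x) (rd_mem R x)
    have C' : c.m.IsConn B G (ada G.F c ξ a).W := Mod61.isConn_addC H C s g fun x i => by
      change ∑ b, B.P i b x • k1 G.F a b x • ξ x = k1 G.F a i x • ξ x
      simp only [smul_smul, ← Finset.sum_smul, ← hG.P, k1_P]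
    refine ⟨⟨⟨H, C', h.adm.sm.add contMDiff_const, fun x => ?_, h.adm.z⟩,
      ⟨⟨R.sm, R.mem, R.sq, fun x hx i => ?_⟩, R.op, R.off⟩, fun x hx => (add_zero _).trans (h.z x hx)⟩,
      ext_k2 G.F Abel74.dg_fm (fun x _ => (Abel74.dg_fm x trivial).add (ha.d.dg x)) fun i j x => ?_⟩
    · change c.m.pp B x (c.Φ x + 0) = c.Φ x + 0
      rw [add_zero, h.adm.pos]
    · refine Eq.trans ?_ (R.par x hx i)
      change _ + adc (c.W i x + opL (k1 G.F a i x • ξ x)) (ξ x) = _ + adc (c.W i x) (ξ x)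
      simp only [adc_apply, map_smul, add_mul, mul_add, smul_mul_assoc, mul_smul_comm,
        add_sub_add_right_eq_sub]
      rfl
    rw [k2_add, Abel74.k2_fm hG C', Abel74.k2_fm hG C]
    by_cases hx : x ∈ Ω
    · have e : ∀ i j, nab I G.F.e (c.m.adW c.W) i (fun y => k1 G.F a j y • ξ y) x =
          G.F.D i (k1 G.F a j) x • ξ x := fun i j => by
        rw [nab_smul i (sa_k1 G.F (ha.sm x) j) (R.sm x hx), R.par x hx, smul_zero, add_zero]; rfl
      have k := Rd78.Fg_addC H C (α := fun x => tn (c1 G.F a x) (ξ x))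
        ((PiLp.continuousLinearEquiv 2 ℝ fun _ : ι => c.m.A).symm.contDiff.contMDiff.comp
          (contMDiff_pi_space.2 s)) g i j x
      change _ = _ + Rdc90.ed I G.F.e G.F.c _ (fun k y => k1 G.F a k y • ξ y) i j x +
        adc (opL (k1 G.F a i x • ξ x)) (k1 G.F a j x • ξ x) at k
      change ⟪c.m.Fg G.F (c.m.addC c.W fun x => tn (c1 G.F a x) (ξ x)) x (i, j), ξ x⟫_ℝ / 16 = _
      rw [fF, k, k2_dM G.F (ha.sm x) (.of_forall ha.dg)]
      simp only [Rdc90.ed, e, adc_apply, map_smul, smul_mul_assoc, mul_smul_comm, smul_sub, smul_smul,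
        ← Finset.sum_smul, ← sub_smul, inner_add_left, real_inner_smul_left, rd_inn R H hx,
        mul_comm (k1 G.F a i x), sub_self, zero_smul, map_zero, inner_zero_left]
      ring
    · rw [k2, Dr59.dM_congr (off_ev hΩ.1 ho hx)]
      simp [e2_zero, fF, R.off x hx]
  · rw [h.z x hx, show c.m.Fg G.F c.W x = WithLp.toLp 2 fun s => fF G.F c.m c.W ξ s.1 s.2 x • ξ x from
      PiLp.ext (R.Fg_eq hB hG H C hx), Abel74.p2_smul (R.mem x hx),
      show c.m.mu B x 0 0 = 0 by simp [Md.mu, Md.q, rk1, ← Pi.zero_def], sub_zero]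
    refine congrArg (WithLp.toLp 2) (funext fun s => congrArg (· • ξ x) ?_)
    simp only [hs, sd, Map77.idx_apply, hG.P, c2, Abel74.k2_fm hG C]
    rfl
  · refine Finset.sum_eq_zero fun a _ => ?_
    rw [nab_congr a (v := fun _ => 0) (mem_of_superset (hΩ.2.mem_nhds hx) h.z)]
    simp [nab]

end Crest.Agent.X212.Qa50
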