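import Crest.Agent.X212.Line51.An
import Crest.Agent.X212.Abel74.Form

/-!
# Row 212, QA (helper50): the line of a parallel real plane field with a complex structure
-/

set_option autoImplicit false
set_option linter.unusedSectionVars false
noncomputable section
open scoped Manifold ContDiff Topology InnerProductSpace Matrix
open Set Function Filter
open Crest.Agent.R208.F (Ext)

namespace Crest.Agent.X212.Qa50
open An Wz78 Sob92 Line51
open Num57 (k2 cn f0 c1 tr)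
open Dr59 (Ex Dg)
open Pj41 (MSm Prj)

variable {E : Type} [NormedAddCommGroup E] [NormedSpace ℝ E] [FiniteDimensional ℝ E]
  [MeasurableSpace E] [BorelSpace E]
  {HM : Type} [TopologicalSpace HM] {I : ModelWithCorners ℝ E HM} [I.Boundaryless]
  {M : Type} [TopologicalSpace M] [ChartedSpace HM M] [IsManifold I ∞ M]
  [MeasurableSpace M] [BorelSpace M] [SecondCountableTopology M] {ι : Type} [Fintype ι]
  {κ : Type} [Fintype κ] [DecidableEq κ] {F : Fr I M ι} {O : Set M} {x : M}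

/-- a symmetric projector field that is parallel on its range is parallel -/
theorem par_of {κ : Type} [Fintype κ] {A : ι → M → En κ} {l : M → En κ} {a : ι} (hA : Skw (A a x))
    (s : SA I l x) (h : ∀ᶠ y in 𝓝 x, Sym (l y) ∧ l y * l y = l y)
    (h0 : nabE I F.e A a l x * l x = 0) : nabE I F.e A a l x = 0 := by
  have h1 : trn (nabE I F.e A a l x) = nabE I F.e A a l x := by
    have e : trn (dv I (F.e a) l x) = dv I (F.e a) l x :=
      (dv_clm Std94.trL s.md).symm.trans (dv_congr (h.mono fun y hy => Sym.trn hy.1))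
    simp only [nabE, map_add, map_sub, trn_mul, Skw.trn hA, Sym.trn h.self_of_nhds.1, e]
    noncomm_ring
  have h2 := (congrArg trn h0).trans (map_zero _)
  rw [trn_mul, h1, Sym.trn h.self_of_nhds.1] at h2
  rw [← nabE_congr a (h.mono fun y hy => hy.2), nabE_mul a s s, h0, h2, add_zero]

/-- two connections that preserve a line -/
theorem ex_ln {L : Ln E M κ} (hO : IsOpen O) (hL : L.On I O) {A : ι → M → En (κ ⊕ κ)}
    (sA : ∀ a, ∀ x ∈ O, SA I (A a) x) (pA : ∀ x ∈ O, ∀ a, ∑ b, F.P a b x • A b x = A a x)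
    (iA : ∀ x ∈ O, ∀ a, iL κ * A a x = A a x * iL κ)
    (nA : ∀ x ∈ O, ∀ a, nabE I F.e A a L.l x = 0) {w : M → Ext E} (dw : Dg 2 O w)
    (cw : ∀ x ∈ O, ∀ a b, curv I F.e F.c A a b x * L.l x = k2 F w a b x • (iL κ * L.l x)) :
    Ex I O (L.F I - w) := by
  have sl : ∀ x ∈ O, SA I L.l x := fun x hx => fsm_rl (hL.sm x hx)
  have pa : ∀ A : ι → M → En (κ ⊕ κ), (∀ x ∈ O, ∀ a, ∑ b, F.P a b x • A b x = A a x) →
      (∀ x ∈ O, ∀ a, iL κ * A a x = A a x * iL κ) → (∀ x ∈ O, ∀ a, nabE I F.e A a L.l x = 0) →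
      Num57.Pa I O (cn F A) (f0 E fun x => iL κ * L.l x) := fun A h1 h2 h3 =>
    Num57.pa_cn F h1 (fun x hx => SA.mul contMDiffAt_const (sl x hx)) fun x hx a => by
      refine (nabE_mul (e := F.e) (A := A) a contMDiffAt_const (sl x hx)).trans ?_
      rw [h3 x hx, mul_zero, add_zero]
      simp [nabE, h2 x hx]
  have k : ∀ (A : ι → M → En (κ ⊕ κ)) (w : M → Ext E), (∀ a, ∀ x ∈ O, SA I (A a) x) →
      (∀ x ∈ O, ∀ a, ∑ b, F.P a b x • A b x = A a x) →
      (∀ x ∈ O, ∀ a b, curv I F.e F.c A a b x * L.l x = k2 F w a b x • (iL κ * L.l x)) →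
      ∀ x ∈ O, ∀ a b, k2 F (c1 I (cn F A) (f0 E fun x => iL κ * L.l x)) a b x = -2 * k2 F w a b x :=
    fun A w h1 h2 h3 x hx a b => by
      have e : L.l x * iL κ = iL κ * L.l x := (iL_mul _).symm
      rw [Num57.k2_c1 F (fun a => h1 a x hx) (eventually_of_mem (hO.mem_nhds hx) h2), tr,
        ContinuousLinearMap.toLinearMap_mul, LinearMap.trace_mul_comm, ← ContinuousLinearMap.toLinearMap_mul, ← e,
        ← mul_assoc, h3 x hx, smul_mul_assoc, mul_assoc, e, ← mul_assoc, iL_sq, neg_one_mul, Ln.l]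
      simp only [ContinuousLinearMap.toLinearMap_smul, ContinuousLinearMap.toLinearMap_neg, map_smul, map_neg,
        rl_trace, hL.tr x hx, Complex.one_re, smul_eq_mul]
      ring
  have s0 := fun a x hx => hL.sm_A hO hx (e := F.e) (F.sm a x)
  have p0 : ∀ x ∈ O, ∀ a, ∑ b, F.P a b x • L.A I F.e b x = L.A I F.e a x := fun x _ a =>
    (A_comb _).trans (congrArg (fun v => rl (L.cm I x v)) (F.P_e a x))
  have c0 := Num57.cn_co F s0
  have c1 := Num57.cn_co F sA
  have q0 := pa _ p0 (fun _ _ _ => iL_mul _) fun x hx a => hL.A_par hO hx a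
  have q1 := pa _ pA iA nA
  refine (Ex.smul (1 / 2) ⟨_, fun x hx => c0.sm.tg1 c1.sm q0.sm hx, fun x hx =>
    (eq_sub_of_add_eq' (Num57.c1_sub hO c0 c1 q0 q1 hx).symm).trans (Pi.sub_apply _ _ x).symm⟩).congr
    fun x hx => ?_
  have d : Dg 2 O _ := ((show Dg 2 O _ from fun x _ => Num57.deg_c1 F A (fun x => iL κ * L.l x) x).sub
    fun x _ => Num57.deg_c1 F (L.A I F.e) (fun x => iL κ * L.l x) x).smul (1 / 2)
  refine (Num57.cf F x).ext2' (((hL.cl_F hO).dg.sub dw) x hx) (d x hx) fun a b => ?_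
  change k2 F _ a b x = k2 F _ a b x
  rw [Num57.k2_smul, Num57.k2_sub, Num57.k2_sub, k A w sA pA cw x hx,
    k _ (L.F I) s0 p0 (fun x hx a b => hL.curv_geo hO F hx a b) x hx]
  ring

variable {Y : Type} [NormedAddCommGroup Y] [NormedSpace ℝ Y] [FiniteDimensional ℝ Y]

/-- a plane with a complex structure -/
structure Pl (ν : (Y →L[ℝ] Y) →ₗ[ℝ] Matrix κ κ ℂ) (q K : Y →L[ℝ] Y) : Prop where
  qq : q * q = q
  Kq : K * q = K
  qK : q * K = K
  KK : K * K = -q
  hq : (ν q)ᴴ = ν q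
  hK : (ν K)ᴴ = -ν K
  tq : (ν q).trace = 2
  tK : (ν K).trace = 0

theorem exists_ln (hO : IsOpen O) (ν : (Y →L[ℝ] Y) →ₗ[ℝ] Matrix κ κ ℂ)
    (hν : ∀ S T, ν (S * T) = ν S * ν T) {A : ι → M → Y →L[ℝ] Y} {q K : M → Y →L[ℝ] Y}
    (sA : ∀ a, ∀ x ∈ O, SA I (A a) x) (pA : ∀ x ∈ O, ∀ a, ∑ b, F.P a b x • A b x = A a x)
    (kA : ∀ x ∈ O, ∀ a, (ν (A a x))ᴴ = -ν (A a x)) (sq : ∀ x ∈ O, SA I q x) (sK : ∀ x ∈ O, SA I K x)
    (h : ∀ x ∈ O, Pl ν (q x) (K x))
    (nq : ∀ x ∈ O, ∀ a, nabE I F.e A a q x * q x = 0 ∧ nabE I F.e A a K x * q x = 0)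
    {w : M → Ext E} (dw : Dg 2 O w)
    (cw : ∀ x ∈ O, ∀ a b, curv I F.e F.c A a b x * q x = k2 F w a b x • K x) :
    ∃ L : Ln E M κ, L.On I O ∧ Ex I O (L.F I - w) := by
  let Φ : (Y →L[ℝ] Y) →L[ℝ] En (κ ⊕ κ) := LinearMap.toContinuousLinearMap (rl ∘ₗ ν)
  have Φm : ∀ S T, Φ (S * T) = Φ S * Φ T := fun S T => (congrArg rl (hν S T)).trans (rl_mul _ _)
  have Φi : ∀ S, iL κ * Φ S = Φ S * iL κ := fun S => iL_mul _
  have ms : ∀ {T : M → Y →L[ℝ] Y} {x}, SA I T x → MSm I (fun y => ν (T y)) x := fun hT i j =>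
    SA.clm (LinearMap.toContinuousLinearMap (Matrix.entryLinearMap ℝ ℂ i j ∘ₗ ν)) hT
  let L : Ln E M κ := ⟨fun x => (1 / 2 : ℝ) • (ν (q x) - Complex.I • ν (K x)), 0⟩
  have hL : L.On I O := ⟨fun x hx => MSm.rsmul contMDiffAt_const
    ((ms (sq x hx)).sub (MSm.smul contMDiffAt_const (ms (sK x hx)))), fun x hx => ⟨?_, ?_⟩,
    fun x hx => ?_, Dr59.Sm.zero, Dg.zero⟩
  rotate_left
  · simp [L, Matrix.conjTranspose_smul, (h x hx).hq, (h x hx).hK]
  · simp only [L, Matrix.smul_mul, Matrix.mul_smul, Matrix.sub_mul, Matrix.mul_sub, ← hν,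
      (h x hx).qq, (h x hx).Kq, (h x hx).qK, (h x hx).KK, map_neg, smul_sub, smul_neg,
      smul_smul Complex.I, Complex.I_mul_I, smul_comm Complex.I (1 / 2 : ℝ)]
    ext i j
    simp
    ring
  · simp [L, (h x hx).tq, (h x hx).tK]
  have e : L.l = fun x => (1 / 2 : ℝ) • (Φ (q x) - iL κ * Φ (K x)) := funext fun x => by
    simp only [Ln.l, L, map_smul, map_sub, rl_I_smul]
    rfl
  have e1 : ∀ x ∈ O, ∀ S T, S * q x = T → S * K x = T * K x := fun x hx S T k => by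
    rw [← k, mul_assoc, (h x hx).qK]
  have n : ∀ {T : M → Y →L[ℝ] Y} {x}, SA I T x → ∀ a, nabE I F.e (fun a x => Φ (A a x)) a
      (fun y => Φ (T y)) x = Φ (nabE I F.e A a T x) := fun hT a => by
    simp only [nabE, dv_clm Φ hT.md, map_add, map_sub, Φm]
  refine ⟨L, hL, ex_ln (F := F) (A := fun a x => Φ (A a x)) hO hL (fun a x hx => SA.clm Φ (sA a x hx))
    (fun x hx a => by simp only [← map_smul, ← map_sum, pA x hx]) (fun x _ a => Φi _)
    (fun x hx a => par_of (skw_rl (kA x hx a)) (fsm_rl (hL.sm x hx))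
      (eventually_of_mem (hO.mem_nhds hx) fun y hy => ⟨sym_rl (hL.prj y hy).herm,
        (rl_mul _ _).symm.trans (congrArg rl (hL.prj y hy).idem)⟩) ?_) dw fun x hx a b => ?_⟩
  · have s1 := SA.clm Φ (sq x hx)
    have s2 := SA.clm Φ (sK x hx)
    have s3 : SA I (fun _ : M => iL κ) x := contMDiffAt_const
    rw [e, nabE_smul a contMDiffAt_const (s1.sub (s3.mul s2)), nabE_sub a s1 (s3.mul s2),
      nabE_mul a s3 s2, n (sq x hx), n (sK x hx), show nabE I F.e (fun a x => Φ (A a x)) a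
        (fun _ => iL κ) x = 0 by simp [nabE, Φi]]
    simp only [dv_const, Pi.zero_apply, zero_smul, zero_add, zero_mul, smul_mul_assoc, mul_smul_comm,
      sub_mul, mul_sub, mul_assoc, ← Φm, (nq x hx a).1, (nq x hx a).2, ← mul_assoc (Φ _), ← Φi,
      e1 x hx _ _ (nq x hx a).1, e1 x hx _ _ (nq x hx a).2, map_zero, mul_zero, sub_self, smul_zero]
  · have k : curv I F.e F.c (fun a x => Φ (A a x)) a b x = Φ (curv I F.e F.c A a b x) := by
      simp only [curv, dv_clm Φ (sA _ x hx).md, map_add, map_sub, map_sum, map_smul, Φm]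
    simp only [k, e, mul_smul_comm, mul_sub, ← mul_assoc (Φ _), ← Φi, mul_assoc, ← Φm, cw x hx,
      e1 x hx _ _ (cw x hx a b), smul_mul_assoc, (h x hx).KK, map_smul, map_neg, ← mul_assoc (iL κ),
      iL_sq, mul_neg, neg_one_mul]
    module

end Crest.Agent.X212.Qa50
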