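import Crest.Agent.X212.Qab60.Props
import Crest.Agent.X212.Qa50.Ln

/-!
# Row 212, QA (helper50): QA-HL, two reductions differ by a line
-/

set_option autoImplicit false
set_option linter.unusedSectionVars false
noncomputable section
open scoped Manifold ContDiff Topology InnerProductSpace Matrix Quaternion
open Set Function Filter
open Crest.Agent.R208.F (Ext)

namespace Crest.Agent.X212.Qa50
open An Wz78 Sob92 Line51
open Num57 (tr)
open Std94 (hs Pix Itx Xi PMx qe)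
open Dfl49 (Two hA itx_comp)
open Abel74 (fm fF)
open Loc8 (Rd)

section alg
variable {κ κ' : Type} [Fintype κ] [DecidableEq κ] [Fintype κ'] [DecidableEq κ']

theorem exists_nu : ∃ ν : CL (CL (Eu κ) (Eu κ')) (CL (Eu κ) (Eu κ')) →ₗ[ℝ] Matrix (κ' × κ) (κ' × κ) ℂ,
    (∀ S T, ν (S * T) = ν S * ν T) ∧ (∀ S S', (∀ T T', hs (S T) T' = hs T (S' T')) → (ν S)ᴴ = ν S') ∧
      ∀ S, (ν S).trace = (tr S : ℝ) := by
  let ε : CL (Eu κ) (Eu κ') ≃ₗ[ℝ] (κ' × κ → ℝ) := Pj41.mx (eb κ) (eb κ') ≪≫ₗ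
    (Matrix.ofLinearEquiv ℝ).symm ≪≫ₗ (LinearEquiv.curry ℝ ℝ κ' κ).symm
  let b := Module.Basis.ofEquivFun ε
  have e : ∀ S T, hs S T = ∑ i, b.repr S i * b.repr T i := fun S T => by
    rw [Std94.hs_eq_sum (eb κ), Fintype.sum_prod_type, Finset.sum_comm]
    refine Finset.sum_congr rfl fun i _ => ((eb κ').sum_inner_mul_inner _ _).symm.trans
      (Finset.sum_congr rfl fun j _ => ?_)
    rw [real_inner_comm, ← Pj41.mx_apply, ← Pj41.mx_apply]
    rfl
  refine ⟨Complex.ofRealAm.toLinearMap.mapMatrix ∘ₗ (LinearMap.toMatrix b b).toLinearMap ∘ₗ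
    ContinuousLinearMap.coeLM ℝ, fun S T => ?_, fun S S' h => ?_, fun S => ?_⟩
  · exact (congrArg (Matrix.map · Complex.ofRealHom) (LinearMap.toMatrix_mul b _ _)).trans
      Matrix.map_mul
  · ext i j
    have := h (b i) (b j)
    simp only [e, Module.Basis.repr_self, Finsupp.single_apply, mul_ite, ite_mul, mul_one, one_mul,
      mul_zero, zero_mul, Finset.sum_ite_eq, Finset.mem_univ, if_true] at this
    simp [LinearMap.toMatrix_apply, this]
  · simp [tr, LinearMap.trace_eq_matrix_trace ℝ b, Matrix.trace]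

variable {Y : Type} [NormedAddCommGroup Y] [NormedSpace ℝ Y] [FiniteDimensional ℝ Y]
  {ν : (Y →L[ℝ] Y) →ₗ[ℝ] Matrix κ κ ℂ} {Q l r : Y →L[ℝ] Y}

/-- the projector -/
def qq (Q l r : Y →L[ℝ] Y) : Y →L[ℝ] Y := (1 / 2 : ℝ) • (Q - l * (r * Q))

theorem qq_apply (Q l r : Y →L[ℝ] Y) (T : Y) : qq Q l r T = (1 / 2 : ℝ) • (Q T - l (r (Q T))) := rfl

theorem pl_of (hν : ∀ S T, ν (S * T) = ν S * ν T) (ht : ∀ S, (ν S).trace = (tr S : ℝ))
    (h1 : Q * Q = Q) (h2 : Q * (l * Q) = l * Q) (h3 : Q * (r * Q) = r * Q) (h4 : r * l = l * r)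
    (h5 : l * (l * Q) = -Q) (h6 : r * (r * Q) = -Q) (sQ : (ν Q)ᴴ = ν Q) (sl : (ν l)ᴴ = -ν l)
    (sr : (ν r)ᴴ = -ν r) (t : tr (qq Q l r) = 2) :
    Pl ν (qq Q l r) (l * qq Q l r) ∧ Q * qq Q l r = qq Q l r ∧ r * qq Q l r = l * qq Q l r := by
  have f : ∀ {S T U : Y →L[ℝ] Y}, S * Q = T * Q → Q * U = U → S * U = T * U := fun a b => by
    rw [← b, ← mul_assoc, a, mul_assoc]
  have c : ∀ S, r * (l * S) = l * (r * S) := fun S => by rw [← mul_assoc, h4, mul_assoc]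
  have l1 : ∀ {U}, Q * U = U → Q * (l * U) = l * U := fun k =>
    (mul_assoc _ _ _).symm.trans (f ((mul_assoc _ _ _).trans h2) k)
  have l2 : ∀ {U}, Q * U = U → l * (l * U) = -U := fun k => (mul_assoc _ _ _).symm.trans
    ((f (T := -1) ((mul_assoc _ _ _).trans (h5.trans (neg_one_mul _).symm)) k).trans (neg_one_mul _))
  have a1 : Q * qq Q l r = qq Q l r := by rw [qq, mul_smul_comm, mul_sub, h1, l1 h3]
  have a2 : r * qq Q l r = l * qq Q l r := by
    simp only [qq, mul_smul_comm, mul_sub, c, h6, l2 h3, mul_neg, sub_neg_eq_add, add_comm]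
  have a3 : ∀ {U}, Q * U = U → r * U = l * U → qq Q l r * U = U := fun k k' => by
    rw [qq, smul_mul_assoc, sub_mul, mul_assoc, mul_assoc, k, k', l2 k]; module
  have a4 := a3 a1 a2
  have a5 := a3 (l1 a1) (by rw [c, a2])
  have a6 : (ν (qq Q l r))ᴴ = ν (qq Q l r) := by
    have : (ν (l * (r * Q)))ᴴ = ν (l * (r * Q)) := by
      rw [← l1 h3]
      conv_rhs => rw [← c]
      simp only [hν, Matrix.conjTranspose_mul, sQ, sl, sr, Matrix.mul_assoc, Matrix.neg_mul,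
        Matrix.mul_neg, neg_neg]
    simp only [qq, map_smul, map_sub, Matrix.conjTranspose_smul, Matrix.conjTranspose_sub, sQ, this,
      star_trivial]
  have a7 : (ν (l * qq Q l r))ᴴ = -ν (l * qq Q l r) := by
    rw [← a5]
    simp only [hν, Matrix.conjTranspose_mul, a6, sl, Matrix.mul_assoc, Matrix.neg_mul, Matrix.mul_neg]
  refine ⟨⟨a4, by rw [mul_assoc, a4], a5, by rw [mul_assoc, a5, l2 a1], a6, a7, by simp [ht, t], ?_⟩,
    a1, a2⟩
  have := congrArg Matrix.trace a7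
  rw [Matrix.trace_conjTranspose, Matrix.trace_neg, ht, Complex.star_def, Complex.conj_ofReal,
    ← ht] at this
  exact self_eq_neg.1 this

theorem tr_quat (f : ℍ →ₗ[ℝ] ℍ) : LinearMap.trace ℝ ℍ f = (f (qe 0)).re + (f (qe 1)).imI +
    (f (qe 2)).imJ + (f (qe 3)).imK := by
  obtain ⟨b, h⟩ : ∃ b : Module.Basis (Fin 4) ℝ ℍ, ∀ z, ⇑(b.repr z) = ![z.re, z.imI, z.imJ, z.imK] :=
    ⟨QuaternionAlgebra.basisOneIJK (-1) 0 (-1), QuaternionAlgebra.coe_basisOneIJK_repr _ _ _⟩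
  have e : ∀ i, b i = qe i := fun i => b.repr.injective (DFunLike.coe_injective (by
    rw [b.repr_self, h]
    funext j
    fin_cases i <;> fin_cases j <;> simp [qe]))
  rw [LinearMap.trace_eq_matrix_trace ℝ b]
  simp [Matrix.trace, Fin.sum_univ_four, LinearMap.toMatrix_apply, h, e]

theorem tr_lr {a a' : ℍ} (a0 : a.re = 0) : LinearMap.trace ℝ ℍ ((1 / 2 : ℝ) •
    (LinearMap.id - LinearMap.mulLeft ℝ a' ∘ₗ LinearMap.mulRight ℝ a)) = 2 := by
  rw [tr_quat]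
  simp only [LinearMap.smul_apply, LinearMap.sub_apply, LinearMap.comp_apply, LinearMap.id_apply,
    LinearMap.mulLeft_apply, LinearMap.mulRight_apply, Quaternion.re_smul, Quaternion.imI_smul,
    Quaternion.imJ_smul, Quaternion.imK_smul, Quaternion.re_sub, Quaternion.imI_sub,
    Quaternion.imJ_sub, Quaternion.imK_sub, Quaternion.re_mul, Quaternion.imI_mul, Quaternion.imJ_mul,
    Quaternion.imK_mul, a0]
  simp [qe]
  ring

theorem tr_conj {V : Type} [AddCommGroup V] [Module ℝ V] [FiniteDimensional ℝ V] {q : V →ₗ[ℝ] V}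
    {X : ℍ →ₗ[ℝ] V} {p : V →ₗ[ℝ] ℍ} {s : ℍ →ₗ[ℝ] ℍ} (h : ∀ c, p (X c) = c)
    (e : ∀ v, q v = X (s (p v))) : LinearMap.trace ℝ V q = LinearMap.trace ℝ ℍ s := by
  rw [show q = (X ∘ₗ s) ∘ₗ p from LinearMap.ext e, LinearMap.trace_comp_comm', ← LinearMap.comp_assoc,
    show p ∘ₗ X = LinearMap.id from LinearMap.ext h, LinearMap.id_comp]

end alg

variable {E : Type} [NormedAddCommGroup E] [NormedSpace ℝ E] [FiniteDimensional ℝ E]
  [MeasurableSpace E] [BorelSpace E]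
  {HM : Type} [TopologicalSpace HM] {I : ModelWithCorners ℝ E HM} [I.Boundaryless]
  {M : Type} [TopologicalSpace M] [ChartedSpace HM M] [IsManifold I ∞ M] [T2Space M]
  [MeasurableSpace M] [BorelSpace M] [SecondCountableTopology M]
  {ι : Type} [Fintype ι] {lam : Type} [Fintype lam]
  {B : Base M ι lam} {G : Geo I M ι lam} {Ω : Set M} {m m' : Md M ι lam} {W : m.Cn} {W' : m'.Cn}
  {x : M}

section nab
variable {Y : Type} [NormedAddCommGroup Y] [NormedSpace ℝ Y] [FiniteDimensional ℝ Y]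
  {Q l r : M → Y →L[ℝ] Y} (sQ : SA I Q x) (sl : SA I l x) (sr : SA I r x)
include sQ sl sr

theorem sa_qq : SA I (fun x => qq (Q x) (l x) (r x)) x :=
  SA.smul contMDiffAt_const (sQ.sub (sl.mul (sr.mul sQ)))

theorem nab_qq {e : ι → (x : M) → TangentSpace I x} {A : ι → M → Y →L[ℝ] Y} {a : ι}
    (n : nabE I e A a l x = 0) (n' : nabE I e A a r x = 0) (n0 : nabE I e A a Q x * Q x = 0)
    (k : Q x * qq (Q x) (l x) (r x) = qq (Q x) (l x) (r x)) :
    nabE I e A a (fun x => qq (Q x) (l x) (r x)) x * qq (Q x) (l x) (r x) = 0 ∧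
      nabE I e A a (fun x => l x * qq (Q x) (l x) (r x)) x * qq (Q x) (l x) (r x) = 0 := by
  have n1 : nabE I e A a Q x * qq (Q x) (l x) (r x) = 0 := by rw [← k, ← mul_assoc, n0, zero_mul]
  have n2 : nabE I e A a (fun x => qq (Q x) (l x) (r x)) x * qq (Q x) (l x) (r x) = 0 := by
    rw [show (fun x => qq (Q x) (l x) (r x)) = fun x => (1 / 2 : ℝ) • (Q x - l x * (r x * Q x)) from rfl,
      nabE_smul a contMDiffAt_const (sQ.sub (sl.mul (sr.mul sQ))), nabE_sub a sQ (sl.mul (sr.mul sQ)),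
      nabE_mul a sl (sr.mul sQ), nabE_mul a sr sQ, n, n']
    simp only [dv_const, Pi.zero_apply, zero_smul, zero_add, zero_mul, smul_mul_assoc, sub_mul,
      mul_assoc, n1, mul_zero, sub_self, smul_zero]
  exact ⟨n2, by rw [nabE_mul a sl (sa_qq sQ sl sr), n, zero_mul, zero_add, mul_assoc, n2, mul_zero]⟩

end nab

variable (m m') in
/-- left multiplication -/
def lm : CL (En (Fin m'.N)) (CL (CL m.V m'.V) (CL m.V m'.V)) :=
  ContinuousLinearMap.compL ℝ m.V m'.V m'.V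

variable (m m') in
/-- right multiplication -/
def rm : CL (En (Fin m.N)) (CL (CL m.V m'.V) (CL m.V m'.V)) :=
  (ContinuousLinearMap.compL ℝ m.V m.V m'.V).flip

theorem lm_apply (X : En (Fin m'.N)) (T : CL m.V m'.V) : lm m m' X T = X ∘L T := rfl

theorem rm_apply (X : En (Fin m.N)) (T : CL m.V m'.V) : rm m m' X T = T ∘L X := rfl

theorem hs_lm {X : En (Fin m'.N)} (h : Skw X) (T T' : CL m.V m'.V) :
    hs (lm m m' X T) T' = hs T ((-lm m m' X) T') :=
  (Std94.hs_conj (X' := -X) (Y := .id ℝ _) (Y' := .id ℝ _)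
    (fun v w => by rw [h, neg_apply, inner_neg_right]) (fun _ _ => rfl) T T').trans
    (congrArg _ (by ext; rfl))

theorem hs_rm {X : En (Fin m.N)} (h : Skw X) (T T' : CL m.V m'.V) :
    hs (rm m m' X T) T' = hs T ((-rm m m' X) T') :=
  (Std94.hs_conj (Y' := -X) (X := .id ℝ _) (X' := .id ℝ _) (fun _ _ => rfl)
    (fun v w => by rw [h, neg_apply, inner_neg_right]) T T').trans
    (congrArg _ (ContinuousLinearMap.ext fun v => map_neg T' (X v)))

theorem nab_lm {e : ι → (x : M) → TangentSpace I x} {X : M → En (Fin m'.N)} (h : SA I X x) (a : ι) :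
    nabE I e (hA W W') a (fun y => lm m m' (X y)) x = lm m m' (nabE I e W' a X x) := by
  rw [nabE, nabE, dv_clm _ h.md, map_add]
  exact congrArg _ (by ext T v; simp [lm, Dfl49.hA_apply])

theorem nab_rm {e : ι → (x : M) → TangentSpace I x} {X : M → En (Fin m.N)} (h : SA I X x) (a : ι) :
    nabE I e (hA W W') a (fun y => rm m m' (X y)) x = rm m m' (nabE I e W a X x) := by
  rw [nabE, nabE, dv_clm _ h.md, map_add]
  exact congrArg _ (by ext T v; simp [rm, Dfl49.hA_apply])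

theorem tr_qq (hB : B.OK I) (H : PMx B m x) (H' : PMx B m' x) {ξ : m.A} {ξ' : m'.A}
    (h : ξ ∈ m.gS x) (h' : ξ' ∈ m'.gS x) :
    tr (qq (Pix m m' x) (lm m m' (opL ξ')) (rm m m' (opL ξ))) = 2 := by
  obtain ⟨U, s, b⟩ := Std94.exists_bx hB x
  obtain ⟨u, f⟩ := b.exists_fx H
  obtain ⟨u', f'⟩ := b.exists_fx H'
  obtain ⟨a, a0, rfl⟩ := (f.mem_g_iff _).1 h
  obtain ⟨a', -, rfl⟩ := (f'.mem_g_iff _).1 h'
  obtain ⟨g, hg⟩ := (Xi u' u).exists_leftInverse_of_injective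
    (LinearMap.ker_eq_bot.2 (Std94.Xi_inj u' u))
  have g1 : ∀ c, g (Xi u' u c) = c := DFunLike.congr_fun hg
  refine (tr_conj (X := Xi u' u) (p := g ∘ₗ (Pix m m' x).toLinearMap) (fun c => ?_)
    fun T => ?_).trans (tr_lr (a' := a') a0)
  · exact (congrArg g (Std94.Pix_of_itx hB H H' ((f.itx_iff f' _).2 ⟨c, rfl⟩))).trans (g1 c)
  · obtain ⟨c, hc⟩ := (f.itx_iff f' _).1 (Std94.itx_Pix hB H H' T)
    simp only [LinearMap.smul_apply, LinearMap.sub_apply, LinearMap.comp_apply, LinearMap.id_apply,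
      LinearMap.mulLeft_apply, LinearMap.mulRight_apply, ContinuousLinearMap.coe_coe, qq_apply,
      lm_apply, rm_apply]
    rw [hc, g1, opL_hsL, opL_hsL, Std94.Xi_comp, Std94.Xi_comp, map_smul, map_sub]

theorem curv_hl (h : Two B G W W' Ω) (hx : x ∈ Ω) {q : CL (CL m.V m'.V) (CL m.V m'.V)}
    (k1 : Pix m m' x * q = q) {ξ : m.A} {ξ' : m'.A} (k2 : rm m m' (opL ξ) * q = lm m m' (opL ξ') * q)
    {a b : ι} {f f' : ℝ} (e : m.Fg G.F W x (a, b) = f • ξ) (e' : m'.Fg G.F W' x (a, b) = f' • ξ') :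
    curv I G.F.e G.F.c (hA W W') a b x * q = (f' - f) • (lm m m' (opL ξ') * q) :=
  ContinuousLinearMap.ext fun T => by
    have k1' : Pix m m' x (q T) = q T := DFunLike.congr_fun k1 T
    have k2' : q T ∘L opL ξ = lm m m' (opL ξ') (q T) := DFunLike.congr_fun k2 T
    rw [smul_apply, mul_apply_eq_comp, h.curv_itx hx ((h.pix hx).1 k1'), e, e',
      map_smul, map_smul, ContinuousLinearMap.smul_comp, ContinuousLinearMap.comp_smul, sub_smul, k2']
    rfl

theorem pl_at (hB : B.OK I) (H : PMx B m x) (H' : PMx B m' x) {ξ : m.A} {ξ' : m'.A}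
    (h : ξ ∈ m.gS x) (h' : ξ' ∈ m'.gS x) (s : opL ξ * opL ξ = -m.p x) (s' : opL ξ' * opL ξ' = -m'.p x)
    {ν : CL (CL m.V m'.V) (CL m.V m'.V) →ₗ[ℝ] Matrix (Fin m'.N × Fin m.N) (Fin m'.N × Fin m.N) ℂ}
    (n1 : ∀ S T, ν (S * T) = ν S * ν T)
    (n2 : ∀ S S', (∀ T T', hs (S T) T' = hs T (S' T')) → (ν S)ᴴ = ν S')
    (n3 : ∀ S, (ν S).trace = (tr S : ℝ)) {q : CL (CL m.V m'.V) (CL m.V m'.V)}
    (e : q = qq (Pix m m' x) (lm m m' (opL ξ')) (rm m m' (opL ξ))) : Pl ν q (lm m m' (opL ξ') * q) ∧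
      Pix m m' x * q = q ∧ rm m m' (opL ξ) * q = lm m m' (opL ξ') * q := by
  subst e
  obtain ⟨U, t, b⟩ := Std94.exists_bx hB x
  obtain ⟨u, f⟩ := b.exists_fx H
  obtain ⟨u', f'⟩ := b.exists_fx H'
  have i := Std94.itx_Pix hB H H'
  have j := fun T => Std94.Pix_of_itx hB H H' (A := T)
  refine pl_of n1 n3 (ContinuousLinearMap.ext fun T => j _ (i T))
    (ContinuousLinearMap.ext fun T => j _ (itx_comp (i T) (f'.itx_of_mem h')))
    (ContinuousLinearMap.ext fun T => j _ (itx_comp (f.itx_of_mem h) (i T)))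
    (ContinuousLinearMap.ext fun _ => rfl)
    (ContinuousLinearMap.ext fun T => ContinuousLinearMap.ext fun v => ?_)
    (ContinuousLinearMap.ext fun T => ContinuousLinearMap.ext fun v => ?_) (n2 _ _ fun T T' => ?_)
    ((n2 _ _ (hs_lm h'.1)).trans (map_neg _ _)) ((n2 _ _ (hs_rm h.1)).trans (map_neg _ _))
    (tr_qq hB H H' h h')
  · exact (DFunLike.congr_fun s' _).trans (congrArg Neg.neg ((i T).pl v))
  · exact (congrArg (Pix m m' x T) (DFunLike.congr_fun s v)).trans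
      ((map_neg _ _).trans (congrArg Neg.neg ((i T).pr v)))
  · rw [Std94.hs_comm, ← Std94.hs_Pi H H' b.of.toON b.lf T' (i T), Std94.hs_comm,
      Std94.hs_Pi H H' b.of.toON b.lf T (i T')]

theorem exists_hl (hB : B.OK I) (hG : G.OK B) (H : m.OK I B) (H' : m'.OK I B) (C : m.IsConn B G W)
    (C' : m'.IsConn B G W') {ξ : M → m.A} {ξ' : M → m'.A} (R : Rd G.F m W Ω ξ)
    (R' : Rd G.F m' W' Ω ξ') : ∃ L : Ln E M (Fin m'.N × Fin m.N), L.On I Ω ∧
      Dr59.Ex I Ω (L.F I - (fm G.F m' W' ξ' - fm G.F m W ξ)) := by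
  obtain ⟨ν, n1, n2, n3⟩ := exists_nu (κ := Fin m.N) (κ' := Fin m'.N)
  have h : Two B G W W' Ω := ⟨hB, hG.P, R.op, Pj41.OK.on H _, Pj41.OK.on H' _, Pj41.IsConn.on C _,
    Pj41.IsConn.on C' _⟩
  have k := fun x (hx : x ∈ Ω) => pl_at hB (Std94.pmx H x) (Std94.pmx H' x) (R.mem x hx) (R'.mem x hx)
    (R.sq x hx) (R'.sq x hx) n1 n2 n3 rfl
  have sl := fun x hx => SA.clm (lm m m') (R'.sm_opL (x := x) hx)
  have sr := fun x hx => SA.clm (rm m m') (R.sm_opL (x := x) hx)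
  have sq := fun x hx => sa_qq (h.sa_Pix hx) (sl x hx) (sr x hx)
  refine exists_ln R.op ν n1 (A := hA W W') (fun a x hx => h.sA hx a) (fun x hx => h.pA hx)
    (fun x hx a => ?_) sq (fun x hx => (sl x hx).mul (sq x hx)) (fun x hx => (k x hx).1)
    (fun x hx a => ?_) ((Abel74.dg_fm.sub Abel74.dg_fm).mono (subset_univ _)) fun x hx a b => ?_
  · change (ν (lm m m' (W' a x) - rm m m' (W a x)))ᴴ = -ν (lm m m' (W' a x) - rm m m' (W a x))
    rw [map_sub, Matrix.conjTranspose_sub, n2 _ _ (hs_lm (C'.sk a x)), n2 _ _ (hs_rm (C.sk a x)),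
      map_neg, map_neg, neg_sub_neg, neg_sub]
  · exact nab_qq (h.sa_Pix hx) (sl x hx) (sr x hx)
      ((nab_lm (R'.sm_opL hx) a).trans (by rw [R'.nE hx, map_zero]))
      ((nab_rm (R.sm_opL hx) a).trans (by rw [R.nE hx, map_zero])) (h.nQ hx a) (k x hx).2.1
  · rw [Num57.k2_sub, Abel74.k2_fm hG C, Abel74.k2_fm hG C']
    exact curv_hl h hx (k x hx).2.1 (k x hx).2.2 (R.Fg_eq hB hG H C hx (a, b))
      (R'.Fg_eq hB hG H' C' hx (a, b))

variable (I M ι lam) in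
/-- **QA-HL** -/
theorem hlStmt : Qab60.HlStmt I M ι lam := fun _ _ _ _ _ _ _ _ _ hB hG h h' =>
  ⟨_, inferInstance, inferInstance,
    exists_hl hB hG h.adm.ok h'.adm.ok h.adm.conn h'.adm.conn h.rd h'.rd⟩

end Crest.Agent.X212.Qa50
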